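import Mathlib
import Vale.Agent.Lib.P162.Defs
import Vale.Agent.Lib.P162.RDefs
import Vale.Agent.Lib.P162.CVDefs
import Vale.Agent.Lib.P162.helper23.ProdTv
import Vale.Agent.Lib.P162.helper36.MoveInj
import Vale.Agent.Lib.P162.helper43.LumpTail
import Vale.Agent.Lib.P162.helper93.Gap
import Vale.Agent.Lib.P162.helper95.KmatBasic

/-!
# P162, pool job CV1 (helper99): the two-walker kernel is a stochastic matrix

* `step_sum_start`: summing the kernel of `j + 1` cards over the START position of the new card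
  gives the kernel of the `j` old cards (each shuffle is a bijection of the positions).
* `Qmat_nonneg`, `Qmat_row_sum`: the two-walker kernel `Qmat` is a stochastic matrix.
* `Qpow_nonneg`, `Qpow_row_sum`: so are its powers.
-/

namespace Vale.Agent.Lib.P162.H99CV

open Finset BigOperators

/-- One shuffle with fixed coins is a bijection of the positions. -/
theorem move_bijective (h : ℕ) [NeZero h] (c : ZMod h → Bool) :
    Function.Bijective (move h c) :=
  ⟨H36.move_injective h c, Finite.injective_iff_surjective.mp (H36.move_injective h c)⟩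

/-- Summing the kernel of `j + 1` cards over the start position of the new card gives the kernel
of the `j` old cards, evaluated at the old part of the target. -/
theorem step_sum_start (h j : ℕ) [NeZero h] (v : Fin j → ZMod (2 * h))
    (y : Fin (j + 1) → ZMod (2 * h)) :
    ∑ q : ZMod (2 * h), Kmat h (j + 1) (Fin.cons q v : Fin (j + 1) → ZMod (2 * h)) y
      = Kmat h j v (Fin.tail y) := by
  classical
  show ∑ q : ZMod (2 * h),
      ((univ.filter fun c : ZMod h → Bool =>
        ∀ i', move h c ((Fin.cons q v : Fin (j + 1) → ZMod (2 * h)) i') = y i').card : ℝ) / 2 ^ h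
    = ((univ.filter fun c : ZMod h → Bool =>
        ∀ i, move h c (v i) = Fin.tail y i).card : ℝ) / 2 ^ h
  rw [← Finset.sum_div]
  congr 1
  rw [← Nat.cast_sum]
  congr 1
  -- the start position of the new card is determined by the coins and by its target `y 0`
  let e : (ZMod h → Bool) → (ZMod (2 * h) ≃ ZMod (2 * h)) :=
    fun c => Equiv.ofBijective (move h c) (move_bijective h c)
  have he : ∀ (c : ZMod h → Bool) (q : ZMod (2 * h)), e c q = move h c q := fun _ _ => rfl
  rw [Finset.card_eq_sum_card_fiberwise (f := fun c : ZMod h → Bool => (e c).symm (y 0))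
    (s := univ.filter fun c : ZMod h → Bool => ∀ i, move h c (v i) = Fin.tail y i)
    (t := (univ : Finset (ZMod (2 * h)))) (fun _ _ => Finset.mem_univ _)]
  refine Finset.sum_congr rfl fun q _ => ?_
  congr 1
  ext c
  rw [Finset.mem_filter, Finset.mem_filter, Finset.mem_filter]
  constructor
  · rintro ⟨hu, hc⟩
    refine ⟨⟨hu, fun i => ?_⟩, ?_⟩
    · have h1 := hc i.succ
      rw [Fin.cons_succ] at h1
      exact h1
    · have h1 := hc 0
      rw [Fin.cons_zero] at h1
      rw [Equiv.symm_apply_eq, he]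
      exact h1.symm
  · rintro ⟨⟨hu, hc⟩, h0⟩
    refine ⟨hu, fun i' => ?_⟩
    refine Fin.cases ?_ (fun i => ?_) i'
    · rw [Fin.cons_zero]
      rw [Equiv.symm_apply_eq, he] at h0
      exact h0.symm
    · rw [Fin.cons_succ]
      exact hc i

/-- The two-walker kernel has nonnegative entries. -/
theorem Qmat_nonneg (h j : ℕ) [NeZero h] (u y : Fin (j + 2) → ZMod (2 * h)) :
    0 ≤ Qmat h j u y := by
  rw [Qmat_apply]
  exact div_nonneg
    (mul_nonneg (H95.stepProb_nonneg h (j + 1) (dropTwo u) (dropTwo y))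
      (H95.stepProb_nonneg h (j + 1) (Fin.tail u) (Fin.tail y)))
    (H95.stepProb_nonneg h j (Fin.tail (Fin.tail u)) (Fin.tail (Fin.tail y)))

/-- A sum of products over a product index set, divided by a constant. -/
theorem sum_mul_div {α : Type*} [Fintype α] (A B : α → ℝ) (d : ℝ) :
    ∑ q, ∑ q', A q * B q' / d = (∑ q, A q) * (∑ q', B q') / d := by
  rw [Finset.sum_mul, Finset.sum_div]
  refine Finset.sum_congr rfl fun q _ => ?_
  rw [Finset.mul_sum, Finset.sum_div]

/-- The rows of the two-walker kernel sum to one. -/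
theorem Qmat_row_sum (h j : ℕ) [NeZero h] (u : Fin (j + 2) → ZMod (2 * h)) :
    ∑ y, Qmat h j u y = 1 := by
  classical
  have hA : ∀ v1 : Fin j → ZMod (2 * h),
      ∑ q : ZMod (2 * h),
        Kmat h (j + 1) (dropTwo u) (Fin.cons q v1 : Fin (j + 1) → ZMod (2 * h))
        = Kmat h j (Fin.tail (Fin.tail u)) v1 :=
    fun v1 => H43.step_tail h j (dropTwo u) v1
  have hB : ∀ v1 : Fin j → ZMod (2 * h),
      ∑ q : ZMod (2 * h),
        Kmat h (j + 1) (Fin.tail u) (Fin.cons q v1 : Fin (j + 1) → ZMod (2 * h))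
        = Kmat h j (Fin.tail (Fin.tail u)) v1 :=
    fun v1 => H43.step_tail h j (Fin.tail u) v1
  calc ∑ y, Qmat h j u y
      = ∑ q1 : ZMod (2 * h), ∑ y' : Fin (j + 1) → ZMod (2 * h),
          Qmat h j u (Fin.cons q1 y' : Fin (j + 2) → ZMod (2 * h)) :=
        H23.sum_fin_succ_fun (j + 1) (fun y => Qmat h j u y)
    _ = ∑ q1 : ZMod (2 * h), ∑ q1' : ZMod (2 * h), ∑ v1 : Fin j → ZMod (2 * h),
          Qmat h j u (Fin.cons q1 (Fin.cons q1' v1) : Fin (j + 2) → ZMod (2 * h)) := by
        refine Finset.sum_congr rfl fun q1 _ => ?_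
        exact H23.sum_fin_succ_fun j
          (fun y' => Qmat h j u (Fin.cons q1 y' : Fin (j + 2) → ZMod (2 * h)))
    _ = ∑ q1 : ZMod (2 * h), ∑ v1 : Fin j → ZMod (2 * h), ∑ q1' : ZMod (2 * h),
          Qmat h j u (Fin.cons q1 (Fin.cons q1' v1) : Fin (j + 2) → ZMod (2 * h)) := by
        refine Finset.sum_congr rfl fun q1 _ => ?_
        exact Finset.sum_comm
    _ = ∑ v1 : Fin j → ZMod (2 * h), ∑ q1 : ZMod (2 * h), ∑ q1' : ZMod (2 * h),
          Qmat h j u (Fin.cons q1 (Fin.cons q1' v1) : Fin (j + 2) → ZMod (2 * h)) :=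
        Finset.sum_comm
    _ = ∑ v1 : Fin j → ZMod (2 * h), ∑ q1 : ZMod (2 * h), ∑ q1' : ZMod (2 * h),
          Kmat h (j + 1) (dropTwo u) (Fin.cons q1 v1 : Fin (j + 1) → ZMod (2 * h))
            * Kmat h (j + 1) (Fin.tail u) (Fin.cons q1' v1 : Fin (j + 1) → ZMod (2 * h))
            / Kmat h j (Fin.tail (Fin.tail u)) v1 := rfl
    _ = ∑ v1 : Fin j → ZMod (2 * h), Kmat h j (Fin.tail (Fin.tail u)) v1 := by
        refine Finset.sum_congr rfl fun v1 _ => ?_
        rw [sum_mul_div, hA v1, hB v1]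
        exact mul_self_div_self _
    _ = 1 := H95.stepProb_sum h j (Fin.tail (Fin.tail u))

/-- The powers of the two-walker kernel have nonnegative entries. -/
theorem Qpow_nonneg (h j : ℕ) [NeZero h] (t : ℕ) (u y : Fin (j + 2) → ZMod (2 * h)) :
    0 ≤ (Qmat h j ^ t) u y :=
  H93.H93_pow_nonneg (Qmat h j) (Qmat_nonneg h j) t u y

/-- The rows of the powers of the two-walker kernel sum to one. -/
theorem Qpow_row_sum (h j : ℕ) [NeZero h] (t : ℕ) (u : Fin (j + 2) → ZMod (2 * h)) :
    ∑ y, (Qmat h j ^ t) u y = 1 :=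
  H93.H93_pow_rowsum (Qmat h j) (Qmat_row_sum h j) t u

end Vale.Agent.Lib.P162.H99CV
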