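import Mathlib
import Vale.Agent.Lib.P162.Defs
import Vale.Agent.Lib.P162.RDefs
import Vale.Agent.Lib.P162.CVDefs
import Vale.Agent.Lib.P162.helper34.StepNewFree
import Vale.Agent.Lib.P162.helper36.MoveInj
import Vale.Agent.Lib.P162.helper43.LumpTail
import Vale.Agent.Lib.P162.helper93.Gap
import Vale.Agent.Lib.P162.helper95.KmatBasic

/-!
# P162, pool job CV7 (third copy, helper99): the two-walker kernel at the coin level

* `Q_ge_K`: from an injective state the two walkers move at least as two cards of the chain of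
  `j + 2` cards do (with a factor `1 / 2` when the two walkers are partners, i.e. share a coin).
* `Q_merge`: two walkers that are partners merge with probability at least `1 / 2`.
-/

namespace Vale.Agent.Lib.P162.H99CV

open Finset BigOperators

/-! ### tuples -/

/-- A tuple of length `j + 2` is its first two entries followed by the rest. -/
theorem cons_cons_eta {α : Type*} {j : ℕ} (u : Fin (j + 2) → α) :
    u = Fin.cons (u 0) (Fin.cons (u 1) (Fin.tail (Fin.tail u))) := by
  have h1 : (Fin.cons (u 1) (Fin.tail (Fin.tail u)) : Fin (j + 1) → α) = Fin.tail u :=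
    Fin.cons_self_tail (Fin.tail u)
  rw [h1]
  exact (Fin.cons_self_tail u).symm

/-! ### partners -/

/-- Partners (positions `p` and `p + h`) are sent to the two positions `2 p` and `2 p + 1`. -/
theorem move_partner_sum (h : ℕ) [NeZero h] (c : ZMod h → Bool) (p : ZMod (2 * h)) :
    move h c (p + (h : ZMod (2 * h))) + move h c p = 4 * p + 1 := by
  have hb := H93.H93_partner_bits h c p
  have h2 := H93.H93_two_h h
  rw [defs_aux_move, defs_aux_move, hb]
  generalize xor (decide (h ≤ p.val)) (c (ZMod.cast p)) = b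
  cases b
  · rw [Bool.not_false, if_pos rfl, if_neg Bool.false_ne_true]
    linear_combination h2
  · rw [Bool.not_true, if_neg Bool.false_ne_true, if_pos rfl]
    linear_combination h2

/-- A new card whose partner is one of the old cards has a forced move. -/
theorem step_forced (h j : ℕ) [NeZero h] (z y : Fin (j + 1) → ZMod (2 * h)) (i : Fin j)
    (hz : z 0 = z i.succ + (h : ZMod (2 * h))) :
    stepProb h (j + 1) z y
      = (if y 0 = 4 * z i.succ + 1 - y i.succ then (1 : ℝ) else 0)
        * stepProb h j (Fin.tail z) (Fin.tail y) := by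
  classical
  have key : ∀ c : ZMod h → Bool, move h c (z i.succ) = y i.succ →
      (move h c (z 0) = y 0 ↔ y 0 = 4 * z i.succ + 1 - y i.succ) := by
    intro c hc
    have hs := move_partner_sum h c (z i.succ)
    rw [← hz, hc] at hs
    constructor
    · intro h0
      rw [← h0]
      exact eq_sub_of_add_eq hs
    · intro h0
      rw [h0]
      exact eq_sub_of_add_eq hs
  rw [defs_aux_stepProb, defs_aux_stepProb]
  by_cases hy : y 0 = 4 * z i.succ + 1 - y i.succ
  · rw [if_pos hy, one_mul]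
    have hfil : (univ.filter fun c : ZMod h → Bool => ∀ i', move h c (z i') = y i')
        = univ.filter fun c : ZMod h → Bool => ∀ i', move h c (Fin.tail z i') = Fin.tail y i' := by
      ext c
      rw [Finset.mem_filter, Finset.mem_filter]
      constructor
      · rintro ⟨hu, hc⟩
        exact ⟨hu, fun i' => hc i'.succ⟩
      · rintro ⟨hu, hc⟩
        refine ⟨hu, fun i' => ?_⟩
        refine Fin.cases ?_ (fun i'' => hc i'') i'
        exact (key c (hc i)).2 hy
    rw [hfil]
  · rw [if_neg hy, zero_mul]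
    have hempty : (univ.filter fun c : ZMod h → Bool => ∀ i', move h c (z i') = y i') = ∅ := by
      rw [Finset.filter_eq_empty_iff]
      intro c _ hc
      exact hy ((key c (hc i.succ)).1 (hc 0))
    rw [hempty, Finset.card_empty, Nat.cast_zero, zero_div]

/-- One entry of the kernel of `j + 1` cards is at most the kernel of the old cards. -/
theorem Kmat_cons_le (h j : ℕ) [NeZero h] (z : Fin (j + 1) → ZMod (2 * h)) (q : ZMod (2 * h))
    (v : Fin j → ZMod (2 * h)) :
    Kmat h (j + 1) z (Fin.cons q v : Fin (j + 1) → ZMod (2 * h)) ≤ Kmat h j (Fin.tail z) v := by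
  rw [← H43.step_tail h j z v]
  exact Finset.single_le_sum
    (f := fun q : ZMod (2 * h) => Kmat h (j + 1) z (Fin.cons q v : Fin (j + 1) → ZMod (2 * h)))
    (fun q _ => H95.stepProb_nonneg h (j + 1) z _) (Finset.mem_univ q)

/-! ### the free one-card kernel -/

theorem Wmat_nonneg_cv (h : ℕ) [NeZero h] (p q : ZMod (2 * h)) : 0 ≤ Wmat h p q := by
  rw [defs_aux_Wmat]
  split_ifs <;> norm_num

theorem Wmat_ge_half (h : ℕ) [NeZero h] (p q : ZMod (2 * h))
    (hq : q = 2 * p ∨ q = 2 * p + 1) : (1 / 2 : ℝ) ≤ Wmat h p q := by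
  rw [defs_aux_Wmat]
  rcases hq with hq | hq
  · rw [if_pos hq]
    split_ifs <;> norm_num
  · rw [if_pos hq]
    split_ifs <;> norm_num

theorem Wmat_ne_zero (h : ℕ) [NeZero h] (p q : ZMod (2 * h)) (hW : Wmat h p q ≠ 0) :
    q = 2 * p ∨ q = 2 * p + 1 := by
  by_contra hcon
  rw [not_or] at hcon
  apply hW
  rw [defs_aux_Wmat, if_neg hcon.1, if_neg hcon.2, add_zero]

theorem Wmat_partner (h : ℕ) [NeZero h] (a q : ZMod (2 * h)) :
    Wmat h (a + (h : ZMod (2 * h))) q = Wmat h a q := by
  have e : 2 * (a + (h : ZMod (2 * h))) = 2 * a := by linear_combination H93.H93_two_h h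
  rw [defs_aux_Wmat, defs_aux_Wmat, e]

theorem Wmat_sq_ge (h : ℕ) [NeZero h] (p q : ZMod (2 * h)) :
    (1 / 2 : ℝ) * Wmat h p q ≤ Wmat h p q * Wmat h p q := by
  rw [defs_aux_Wmat]
  split_ifs <;> norm_num

theorem Wmat_row_sum_cv (h : ℕ) [NeZero h] (p : ZMod (2 * h)) : ∑ q, Wmat h p q = 1 := by
  have e : ∀ q : ZMod (2 * h), Wmat h p q
      = (if q = 2 * p then (1 / 2 : ℝ) else 0) + (if q = 2 * p + 1 then (1 / 2 : ℝ) else 0) :=
    fun q => defs_aux_Wmat h p q
  rw [Finset.sum_congr rfl (fun q _ => e q), Finset.sum_add_distrib, Finset.sum_ite_eq',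
    Finset.sum_ite_eq', if_pos (Finset.mem_univ _), if_pos (Finset.mem_univ _)]
  norm_num

/-! ### real arithmetic -/

theorem arith_free (c K0 K1 : ℝ) (h0 : 0 ≤ K1) (hle : K1 ≤ K0) :
    c * K1 ≤ c * K0 * K1 / K0 := by
  by_cases hK : K0 = 0
  · have h1 : K1 = 0 := le_antisymm (hK ▸ hle) h0
    rw [h1, mul_zero, mul_zero, zero_div]
  · have e : c * K0 * K1 / K0 = c * K1 := by field_simp
    rw [e]

theorem arith_prod (w1 w2 k : ℝ) : w1 * k * (w2 * k) / k = w1 * w2 * k := by
  by_cases hk : k = 0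
  · subst hk
    simp
  · field_simp

theorem arith_partner (w1 w2 k c : ℝ) (hk : 0 ≤ k) (hc : 1 / 2 * c * w2 ≤ w1 * w2) :
    1 / 2 * (c * (w2 * k)) ≤ w1 * k * (w2 * k) / k := by
  rw [arith_prod]
  have h1 := mul_le_mul_of_nonneg_right hc hk
  linarith

/-! ### the two statements, for tuples written with cons -/

theorem Q_ge_K_cons (h j : ℕ) [NeZero h] (a b : ZMod (2 * h)) (x : Fin j → ZMod (2 * h))
    (a1 b1 : ZMod (2 * h)) (x1 : Fin j → ZMod (2 * h))
    (hab : a ≠ b) (hax : ∀ i, x i ≠ a) (hbx : ∀ i, x i ≠ b) :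
    (if b = a + (h : ZMod (2 * h)) then (1 / 2 : ℝ) else 1)
        * Kmat h (j + 2) (Fin.cons a (Fin.cons b x)) (Fin.cons a1 (Fin.cons b1 x1))
      ≤ Qmat h j (Fin.cons a (Fin.cons b x)) (Fin.cons a1 (Fin.cons b1 x1)) := by
  rw [Qmat_cons]
  have hK0 : 0 ≤ Kmat h j x x1 := H95.stepProb_nonneg h j x x1
  have hK1 : 0 ≤ Kmat h (j + 1) (Fin.cons b x) (Fin.cons b1 x1) :=
    H95.stepProb_nonneg h (j + 1) _ _
  have hK1le : Kmat h (j + 1) (Fin.cons b x) (Fin.cons b1 x1) ≤ Kmat h j x x1 :=
    Kmat_cons_le h j (Fin.cons b x) b1 x1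
  by_cases hp : b = a + (h : ZMod (2 * h))
  · -- partners
    rw [if_pos hp]
    have hba : b + (h : ZMod (2 * h)) = a := by
      rw [hp, add_assoc, H36.half_add_half, add_zero]
    have hna : ¬ newBad h j (Fin.cons a x : Fin (j + 1) → ZMod (2 * h)) := by
      intro hbad
      obtain ⟨i, hi⟩ := (newBad_iff h j _).1 hbad
      rcases (H36.cast_eq_iff h a (x i)).1 hi with e | e
      · exact hax i e
      · exact hbx i (e.trans hp.symm)
    have hnb : ¬ newBad h j (Fin.cons b x : Fin (j + 1) → ZMod (2 * h)) := by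
      intro hbad
      obtain ⟨i, hi⟩ := (newBad_iff h j _).1 hbad
      rcases (H36.cast_eq_iff h b (x i)).1 hi with e | e
      · exact hbx i e
      · exact hax i (e.trans hba)
    have e1 : Kmat h (j + 1) (Fin.cons a x) (Fin.cons a1 x1) = Wmat h a a1 * Kmat h j x x1 :=
      H34.step_new_free h j (Fin.cons a x) (Fin.cons a1 x1) hna
    have e2 : Kmat h (j + 1) (Fin.cons b x) (Fin.cons b1 x1) = Wmat h b b1 * Kmat h j x x1 :=
      H34.step_new_free h j (Fin.cons b x) (Fin.cons b1 x1) hnb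
    have e3 : Kmat h (j + 2) (Fin.cons a (Fin.cons b x)) (Fin.cons a1 (Fin.cons b1 x1))
        = (if a1 = 4 * b + 1 - b1 then (1 : ℝ) else 0)
          * Kmat h (j + 1) (Fin.cons b x) (Fin.cons b1 x1) :=
      step_forced h (j + 1) (Fin.cons a (Fin.cons b x)) (Fin.cons a1 (Fin.cons b1 x1)) 0
        hba.symm
    have hc : 1 / 2 * (if a1 = 4 * b + 1 - b1 then (1 : ℝ) else 0) * Wmat h b b1
        ≤ Wmat h a a1 * Wmat h b b1 := by
      by_cases hc1 : a1 = 4 * b + 1 - b1
      · rw [if_pos hc1, mul_one]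
        by_cases hW : Wmat h b b1 = 0
        · rw [hW, mul_zero, mul_zero]
        · have hb1 := Wmat_ne_zero h b b1 hW
          have e2a : 2 * a = 2 * b := by
            rw [← hba]
            linear_combination H93.H93_two_h h
          have ha1 : a1 = 2 * a ∨ a1 = 2 * a + 1 := by
            rcases hb1 with hb1 | hb1
            · right
              rw [hc1, hb1, e2a]
              ring
            · left
              rw [hc1, hb1, e2a]
              ring
          exact mul_le_mul_of_nonneg_right (Wmat_ge_half h a a1 ha1) (Wmat_nonneg_cv h b b1)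
      · rw [if_neg hc1, mul_zero, zero_mul]
        exact mul_nonneg (Wmat_nonneg_cv h a a1) (Wmat_nonneg_cv h b b1)
    rw [e3, e1, e2]
    exact arith_partner _ _ _ _ hK0 hc
  · -- not partners
    rw [if_neg hp, one_mul]
    have hex : ∃ c : ℝ,
        Kmat h (j + 2) (Fin.cons a (Fin.cons b x)) (Fin.cons a1 (Fin.cons b1 x1))
          = c * Kmat h (j + 1) (Fin.cons b x) (Fin.cons b1 x1)
        ∧ Kmat h (j + 1) (Fin.cons a x) (Fin.cons a1 x1) = c * Kmat h j x x1 := by
      by_cases hsh : ∃ i, (ZMod.cast a : ZMod h) = ZMod.cast (x i)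
      · obtain ⟨i, hi⟩ := hsh
        have hxi : x i = a + (h : ZMod (2 * h)) := by
          rcases (H36.cast_eq_iff h a (x i)).1 hi with e | e
          · exact absurd e (hax i)
          · exact e
        have haxi : a = x i + (h : ZMod (2 * h)) := by
          rw [hxi, add_assoc, H36.half_add_half, add_zero]
        refine ⟨if a1 = 4 * x i + 1 - x1 i then (1 : ℝ) else 0, ?_, ?_⟩
        · exact step_forced h (j + 1) (Fin.cons a (Fin.cons b x))
            (Fin.cons a1 (Fin.cons b1 x1)) i.succ haxi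
        · exact step_forced h j (Fin.cons a x) (Fin.cons a1 x1) i haxi
      · have hna : ¬ newBad h j (Fin.cons a x : Fin (j + 1) → ZMod (2 * h)) := by
          intro hbad
          obtain ⟨i, hi⟩ := (newBad_iff h j _).1 hbad
          exact hsh ⟨i, hi⟩
        have hnu : ¬ newBad h (j + 1)
            (Fin.cons a (Fin.cons b x) : Fin (j + 1 + 1) → ZMod (2 * h)) := by
          intro hbad
          obtain ⟨i, hi⟩ := (newBad_iff h (j + 1) _).1 hbad
          revert hi
          refine Fin.cases ?_ (fun i' => ?_) i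
          · intro hi
            rcases (H36.cast_eq_iff h a b).1 hi with e | e
            · exact hab e.symm
            · exact hp e
          · intro hi
            exact hsh ⟨i', hi⟩
        refine ⟨Wmat h a a1, ?_, ?_⟩
        · exact H34.step_new_free h (j + 1) (Fin.cons a (Fin.cons b x))
            (Fin.cons a1 (Fin.cons b1 x1)) hnu
        · exact H34.step_new_free h j (Fin.cons a x) (Fin.cons a1 x1) hna
    obtain ⟨c, hc2, hc1⟩ := hex
    rw [hc2, hc1]
    exact arith_free c _ _ hK1 hK1le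

theorem Q_merge_cons (h j : ℕ) [NeZero h] (a b : ZMod (2 * h)) (x : Fin j → ZMod (2 * h))
    (hax : ∀ i, x i ≠ a) (hbx : ∀ i, x i ≠ b) (hp : b = a + (h : ZMod (2 * h))) :
    (1 / 2 : ℝ) ≤ ∑ v : Fin j → ZMod (2 * h), ∑ q : ZMod (2 * h),
      Qmat h j (Fin.cons a (Fin.cons b x))
        (Fin.cons q (Fin.cons q v) : Fin (j + 2) → ZMod (2 * h)) := by
  have hba : b + (h : ZMod (2 * h)) = a := by
    rw [hp, add_assoc, H36.half_add_half, add_zero]
  have hna : ¬ newBad h j (Fin.cons a x : Fin (j + 1) → ZMod (2 * h)) := by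
    intro hbad
    obtain ⟨i, hi⟩ := (newBad_iff h j _).1 hbad
    rcases (H36.cast_eq_iff h a (x i)).1 hi with e | e
    · exact hax i e
    · exact hbx i (e.trans hp.symm)
  have hnb : ¬ newBad h j (Fin.cons b x : Fin (j + 1) → ZMod (2 * h)) := by
    intro hbad
    obtain ⟨i, hi⟩ := (newBad_iff h j _).1 hbad
    rcases (H36.cast_eq_iff h b (x i)).1 hi with e | e
    · exact hbx i e
    · exact hax i (e.trans hba)
  have e1 : ∀ (q : ZMod (2 * h)) (v : Fin j → ZMod (2 * h)),
      Kmat h (j + 1) (Fin.cons a x) (Fin.cons q v) = Wmat h a q * Kmat h j x v :=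
    fun q v => H34.step_new_free h j (Fin.cons a x) (Fin.cons q v) hna
  have e2 : ∀ (q : ZMod (2 * h)) (v : Fin j → ZMod (2 * h)),
      Kmat h (j + 1) (Fin.cons b x) (Fin.cons q v) = Wmat h a q * Kmat h j x v := by
    intro q v
    have e := H34.step_new_free h j (Fin.cons b x) (Fin.cons q v) hnb
    have ew : Wmat h b q = Wmat h a q := by
      rw [hp]
      exact Wmat_partner h a q
    rw [← ew]
    exact e
  have hsum : ∀ v : Fin j → ZMod (2 * h),
      ∑ q : ZMod (2 * h), (1 / 2 : ℝ) * Wmat h a q * Kmat h j x v = 1 / 2 * Kmat h j x v := by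
    intro v
    rw [← Finset.sum_mul, ← Finset.mul_sum, Wmat_row_sum_cv, mul_one]
  calc (1 / 2 : ℝ)
      = ∑ v : Fin j → ZMod (2 * h), ∑ q : ZMod (2 * h),
          (1 / 2 : ℝ) * Wmat h a q * Kmat h j x v := by
        rw [Finset.sum_congr rfl (fun v _ => hsum v), ← Finset.mul_sum,
          show ∑ v : Fin j → ZMod (2 * h), Kmat h j x v = 1 from H95.stepProb_sum h j x, mul_one]
    _ ≤ ∑ v : Fin j → ZMod (2 * h), ∑ q : ZMod (2 * h),
          Qmat h j (Fin.cons a (Fin.cons b x))
            (Fin.cons q (Fin.cons q v) : Fin (j + 2) → ZMod (2 * h)) := by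
        refine Finset.sum_le_sum fun v _ => Finset.sum_le_sum fun q _ => ?_
        rw [Qmat_cons, e1 q v, e2 q v, arith_prod]
        exact mul_le_mul_of_nonneg_right (Wmat_sq_ge h a q) (H95.stepProb_nonneg h j x v)

/-! ### the two statements -/

/-- From an injective state the two walkers move at least as two cards of the chain of `j + 2`
cards do, up to a factor `1 / 2` when the two walkers are partners. -/
theorem Q_ge_K (h j : ℕ) [NeZero h] (u y : Fin (j + 2) → ZMod (2 * h))
    (hu : Function.Injective u) (hy : y 0 ≠ y 1) :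
    (if u 1 = u 0 + (h : ZMod (2 * h)) then (1 / 2 : ℝ) else 1) * Kmat h (j + 2) u y
      ≤ Qmat h j u y := by
  obtain ⟨a, b, x, rfl⟩ : ∃ (a b : ZMod (2 * h)) (x : Fin j → ZMod (2 * h)),
      u = Fin.cons a (Fin.cons b x) := ⟨_, _, _, cons_cons_eta u⟩
  obtain ⟨a1, b1, x1, rfl⟩ : ∃ (a1 b1 : ZMod (2 * h)) (x1 : Fin j → ZMod (2 * h)),
      y = Fin.cons a1 (Fin.cons b1 x1) := ⟨_, _, _, cons_cons_eta y⟩
  obtain ⟨ha, hbx'⟩ := Fin.cons_injective_iff.1 hu
  obtain ⟨hb, _⟩ := Fin.cons_injective_iff.1 hbx'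
  have hab : a ≠ b := fun e => ha ⟨0, e.symm⟩
  have hax : ∀ i, x i ≠ a := fun i e => ha ⟨i.succ, e⟩
  have hbx : ∀ i, x i ≠ b := fun i e => hb ⟨i, e⟩
  exact Q_ge_K_cons h j a b x a1 b1 x1 hab hax hbx

/-- Two walkers that are partners merge with probability at least `1 / 2`. -/
theorem Q_merge (h j : ℕ) [NeZero h] (u : Fin (j + 2) → ZMod (2 * h))
    (hu : Function.Injective u) (hp : u 1 = u 0 + (h : ZMod (2 * h))) :
    (1 / 2 : ℝ) ≤ ∑ v : Fin j → ZMod (2 * h), ∑ x : ZMod (2 * h),
      Qmat h j u (Fin.cons x (Fin.cons x v) : Fin (j + 2) → ZMod (2 * h)) := by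
  obtain ⟨a, b, x, rfl⟩ : ∃ (a b : ZMod (2 * h)) (x : Fin j → ZMod (2 * h)),
      u = Fin.cons a (Fin.cons b x) := ⟨_, _, _, cons_cons_eta u⟩
  obtain ⟨ha, hbx'⟩ := Fin.cons_injective_iff.1 hu
  obtain ⟨hb, _⟩ := Fin.cons_injective_iff.1 hbx'
  have hax : ∀ i, x i ≠ a := fun i e => ha ⟨i.succ, e⟩
  have hbx : ∀ i, x i ≠ b := fun i e => hb ⟨i, e⟩
  exact Q_merge_cons h j a b x hax hbx hp

end Vale.Agent.Lib.P162.H99CV
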